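import Vale.Agent.P235.H265.Proc

/-!
P235, K5, theorem N, row PROC: the process of H265 over a rooted tree of bags of any size. The
nodes have any type `T`, the adhesions `S t` have at most `k` points, the random functions live on
all of `V`, the metric `d t` may grow along the tree; anticoncentration is stated for an arbitrary
capture function `C`.
-/

namespace Vale.Agent.P235.K5.H439

open Finset Vale.Agent.P235.H65 Vale.Agent.P235.H265

theorem hh_mono {d d' t : ℝ} (hd : 0 ≤ d) (h : d ≤ d') : hh d t ≤ hh d' t := by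
  by_cases h1 : d ≤ |t|
  · rw [hh_of_le h1]
    exact abs_le_hh (hd.trans h)
  · push Not at h1
    have h2 : |t| ≤ d' := h1.le.trans h
    have hd0 : 0 < d := lt_of_le_of_lt (abs_nonneg t) h1
    have hd1 : 0 < d' := lt_of_lt_of_le hd0 h
    unfold hh
    rw [if_pos h1.le, if_pos h2, div_le_div_iff₀ (by positivity) (by positivity)]
    have h3 : t ^ 2 ≤ d ^ 2 := by
      rw [← sq_abs t]
      exact pow_le_pow_left₀ (abs_nonneg t) h1.le 2
    have h4 : t ^ 2 ≤ d * d' := h3.trans (by nlinarith)
    nlinarith [mul_nonneg (sub_nonneg.mpr h) (sub_nonneg.mpr h4)]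

/-- the class DD is monotone in the metric -/
theorem dd_mono {Ω V : Type*} [Fintype Ω] {P : Ω → ℝ} {d d' : V → V → ℝ} {g : Ω → V → ℝ}
    (hd : ∀ p q, 0 ≤ d p q) (h : ∀ p q, d p q ≤ d' p q) (hg : DD P d g) : DD P d' g :=
  fun p q t => (hg p q t).trans (hh_mono (hd p q) (h p q))

/-- **the process** over a rooted tree of bags: `P t` is the law of the environment at the node
`t`, `g t` the random function on all of `V`, `Q t` the joint law of the environments at `par t`
and at `t`, `S t` the adhesion of the node `t` (to its parent). -/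
structure BProc (T V : Type) (d : T → V → V → ℝ) (par : T → T) (root : T → Prop)
    (S : T → Finset V) (C : T → V → V → ℝ) (κ ε : ℝ) where
  /-- environments -/
  O : Type
  [fO : Fintype O]
  /-- laws -/
  P : T → O → ℝ
  /-- random functions -/
  g : T → O → V → ℝ
  /-- pair laws -/
  Q : T → O → O → ℝ
  P_nonneg : ∀ t o, 0 ≤ P t o
  P_sum : ∀ t, ∑ o, P t o = 1
  Q_nonneg : ∀ t o o', 0 ≤ Q t o o'
  Q_left : ∀ t, ¬ root t → ∀ o, ∑ o', Q t o o' = P (par t) o
  Q_right : ∀ t, ¬ root t → ∀ o', ∑ o, Q t o o' = P t o'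
  /-- on the adhesion the new function is the conditional expectation of the old one -/
  ce : ∀ t, ¬ root t → ∀ a ∈ S t, ∀ o', ∑ o, Q t o o' * g (par t) o a = P t o' * g t o' a
  /-- the weak order on the adhesion is kept -/
  ord : ∀ t, ¬ root t → ∀ o o', Q t o o' ≠ 0 → ∀ a ∈ S t, ∀ b ∈ S t,
    (g (par t) o a ≤ g (par t) o b ↔ g t o' a ≤ g t o' b)
  /-- convex order -/
  dd : ∀ t, DD (P t) (d t) (g t)
  /-- anticoncentration -/
  ac : ∀ t p q, ∑ o, (if |g t o p - g t o q| < κ * C t p q then P t o else 0) ≤ ε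

attribute [instance] BProc.fO

/-- **existence of the process**: the constant `κ` depends on `k`, `L`, `ε` only -/
theorem exists_bproc (k L : ℕ) {ε : ℝ} (hε : 0 < ε) : ∃ κ : ℝ, 0 < κ ∧
    ∀ (T V : Type) (d : T → V → V → ℝ) (par : T → T) (rk : T → ℕ) (root : T → Prop)
      (S : T → Finset V) (η : T → Fin L → V → ℝ) (C : T → V → V → ℝ),
      (∀ t p q, 0 ≤ d t p q) → (∀ t, ¬ root t → ∀ p q, d (par t) p q ≤ d t p q) →
      (∀ t, ¬ root t → rk (par t) < rk t) → (∀ t, (S t).card ≤ k) →
      (∀ t j p q, |η t j p - η t j q| ≤ d t p q) →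
      (∀ t, ¬ root t → ∀ j, η t j = η (par t) j ∨ ∀ a ∈ S t, η t j a = 0) →
      (∀ t p q, 0 < C t p q → ∃ j, C t p q ≤ |η t j p - η t j q|) →
      Nonempty (BProc T V d par root S C κ ε) := by
  classical
  obtain ⟨K⟩ := exists_consts k L 1 hε
  have hm0 : 0 < K.m := by have := K.hm; omega
  have hm1 : (0 : ℝ) < (K.m : ℝ) - 1 := by
    have : (2 : ℝ) ≤ K.m := by exact_mod_cast K.hm
    linarith
  have hu0 := K.hu0
  refine ⟨1 * K.u / ((K.m : ℝ) - 1), by positivity, ?_⟩
  intro T V d par rk root S η C hd hmono hrk hS hlip hfresh hcap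
  rcases isEmpty_or_nonempty V with hV | ⟨⟨v0⟩⟩
  · -- no vertices: the trivial process
    refine ⟨{
      O := Unit
      P := fun _ _ => 1
      g := fun _ _ _ => 0
      Q := fun _ _ _ => 1
      P_nonneg := fun _ _ => zero_le_one
      P_sum := fun _ => by simp
      Q_nonneg := fun _ _ _ => zero_le_one
      Q_left := fun _ _ _ => by simp
      Q_right := fun _ _ _ => by simp
      ce := fun _ _ a _ _ => (hV.false a).elim
      ord := fun _ _ _ _ _ a _ _ _ => (hV.false a).elim
      dd := fun _ p => (hV.false p).elim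
      ac := fun _ p _ => (hV.false p).elim }⟩
  have hen : ∀ t, ∃ e : Fin k → V, ∀ a ∈ S t, ∃ i, e i = a :=
    fun t => exists_enum (S t) v0 (hS t)
  choose e he using hen
  let Sl : T → Finset (Fin L) := fun t => univ.filter fun j => η t j ≠ η (par t) j
  have hSl : ∀ t j, j ∉ Sl t → η t j = η (par t) j := by
    intro t j hj
    by_contra h
    exact hj (mem_filter.mpr ⟨mem_univ _, h⟩)
  have hSlA : ∀ t, ¬ root t → ∀ a ∈ S t, ∀ j ∈ Sl t, η t j a = 0 := by
    intro t ht a ha j hj
    rcases hfresh t ht j with h | h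
    · exact absurd h (mem_filter.mp hj).2
    · exact h a ha
  obtain ⟨F, hF, hrel⟩ := H991.tree_rec par rk root hrk
    (fun t (R : St V k L K.m) => Good (d t) K.u ε (η t) R)
    (fun t R R' => R' = R.next K.u (Sl t) (e t) K.β (η t))
    (by
      intro t _
      refine ⟨(St.triv V k L K.m).next K.u univ (e t) K.β (η t), ?_⟩
      refine Good.step K (hd t) (ηp := fun _ _ => 0) ?_ (hlip t) univ
        (fun j hj => absurd (mem_univ j) hj) (e t)
      exact ⟨St.triv_w_nonneg, St.triv_w_sum, St.triv_dd hm0 (hd t) K.u,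
        fun j => by rw [St.triv_bad]; positivity, rfl⟩)
    (by
      intro t ht R hR
      have hR' : Good (d t) K.u ε (η (par t)) R :=
        ⟨hR.w_nonneg, hR.w_sum, dd_mono (hd (par t)) (hmono t ht) hR.dd, hR.bad, hR.eta⟩
      exact ⟨R.next K.u (Sl t) (e t) K.β (η t),
        Good.step K (hd t) hR' (hlip t) (Sl t) (hSl t) (e t), rfl⟩)
  refine ⟨{
    O := Om k L K.m
    P := fun t => (F t).P
    g := fun t => (F t).g K.u
    Q := fun t => (F (par t)).Q K.u (Sl t) (e t)
    P_nonneg := fun t o => St.P_nonneg (hF t).w_nonneg o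
    P_sum := fun t => St.sum_P hm0 (hF t).w_sum
    Q_nonneg := fun t o o' => St.Q_nonneg (hF (par t)).w_nonneg o o'
    Q_left := fun t _ o => St.sum_Q_one hm0 o
    Q_right := fun t ht o' => by
      rw [hrel t ht]
      exact St.sum_Q_snd o'
    ce := fun t ht a ha o' => by
      rw [hrel t ht]
      exact St.ce (hF (par t)).w_nonneg (hSlA t ht a ha) o'
    ord := fun t ht o o' hQ a ha b hb => by
      rw [hrel t ht]
      exact St.ord (hF (par t)).w_nonneg (hSlA t ht a ha) (hSlA t ht b hb) (he t a ha) (he t b hb)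
        hQ
    dd := fun t => (hF t).dd
    ac := fun t p q => by
      by_cases hC : 0 < C t p q
      · obtain ⟨j, hj⟩ := hcap t p q hC
        have h := St.anti (S := F t) K.hm (hF t).w_nonneg (hF t).w_sum K.hu0.le (p := p) (q := q)
          (D := C t p q) (c1 := 1) (j := j) (by rw [(hF t).eta, one_mul]; exact hj)
        have h2 := (hF t).bad j
        have h3 := K.hmε
        linarith
      · push Not at hC
        have hκ : (0 : ℝ) < 1 * K.u / ((K.m : ℝ) - 1) := by positivity
        have h0 : ∑ o, (if |(F t).g K.u o p - (F t).g K.u o q| <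
            1 * K.u / ((K.m : ℝ) - 1) * C t p q then (F t).P o else 0) = 0 := by
          refine Finset.sum_eq_zero fun o _ => ?_
          rw [if_neg]
          have h1 : 1 * K.u / ((K.m : ℝ) - 1) * C t p q ≤ 0 :=
            mul_nonpos_of_nonneg_of_nonpos hκ.le hC
          exact not_lt.mpr (h1.trans (abs_nonneg _))
        rw [h0]
        exact hε.le }⟩

namespace BProc

variable {T V : Type} {d : T → V → V → ℝ} {par : T → T} {root : T → Prop}
  {S : T → Finset V} {C : T → V → V → ℝ} {κ ε : ℝ} (R : BProc T V d par root S C κ ε)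

/-- the mean increments -/
theorem mean_abs (hd : ∀ t p q, 0 ≤ d t p q) (t : T) (p q : V) :
    ∑ o, R.P t o * |R.g t o p - R.g t o q| ≤ d t p q / 2 :=
  DD.mean_abs (hd t) (R.dd t) p q

/-- a bound for all values, on a finite tree -/
theorem exists_bound [Finite V] [Finite T] : ∃ K : ℝ, 0 < K ∧ ∀ t o p, |R.g t o p| ≤ K := by
  classical
  have := Fintype.ofFinite V
  have := Fintype.ofFinite T
  have h : ∃ K : ℝ, ∀ x : T × R.O × V, |R.g x.1 x.2.1 x.2.2| ≤ K :=
    ⟨∑ x : T × R.O × V, |R.g x.1 x.2.1 x.2.2|, fun x =>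
      Finset.single_le_sum (f := fun x : T × R.O × V => |R.g x.1 x.2.1 x.2.2|)
        (fun _ _ => abs_nonneg _) (Finset.mem_univ x)⟩
  obtain ⟨K, hK⟩ := h
  exact ⟨max K 1, lt_of_lt_of_le one_pos (le_max_right _ _), fun t o p =>
    (hK (t, o, p)).trans (le_max_left _ _)⟩

end BProc

end Vale.Agent.P235.K5.H439
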