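import Vale.Agent.P235.H105.Glue

/-!
P235, K5: small graphs (at most `w + 1` vertices) have edge-exact embeddings with a constant which
depends on `w` only.
-/

namespace Vale.Agent.P235.K5.H439

open Vale.Agent.P235

theorem pathwidth_small {V : Type} [Finite V] (G : SimpleGraph V) {w : ℕ}
    (h : Nat.card V ≤ w + 1) : PathwidthLE G w := by
  classical
  have := Fintype.ofFinite V
  refine ⟨1, fun _ => Finset.univ, fun v => ⟨0, Finset.mem_univ v⟩,
    fun u v _ => ⟨0, Finset.mem_univ u, Finset.mem_univ v⟩,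
    fun _ _ _ _ _ v _ _ => Finset.mem_univ v, fun _ => ?_⟩
  rw [Finset.card_univ, ← Nat.card_eq_fintype_card]
  exact h

/-- **small pieces** -/
theorem small_edgeExact (w : ℕ) : ∃ c : ℝ, 0 < c ∧ c ≤ 1 ∧ ∀ (V : Type) [Finite V]
    (G : SimpleGraph V), Nat.card V ≤ w + 1 → EdgeExact G c := by
  obtain ⟨c, hc, h⟩ := lineLip_of_pathwidth w
  exact ⟨min c 1, lt_min hc one_pos, min_le_right _ _, fun V _ G hV =>
    ((h G (pathwidth_small G hV)).edgeExact).mono (min_le_left _ _)⟩

end Vale.Agent.P235.K5.H439
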